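import Vale.Agent.P333.Defs

/-! More polynomial time list operations. -/

namespace Vale.Agent.P333

open Vale.Agent.Lib.H23 Enc Polynomial

variable {α β γ σ : Type} [Enc α] [Enc β] [Enc γ] [Enc σ]

theorem sz_append (l m : List β) : sz (l ++ m) + 1 = sz l + sz m := by
  induction l with
  | nil => simp [add_comm]
  | cons a l ih => simp only [List.cons_append, sz_cons]; omega

theorem sz_sublist {l m : List β} (h : l.Sublist m) : sz l ≤ sz m := by
  induction h with
  | slnil => exact le_rfl
  | cons a _ ih => simp only [sz_cons]; omega
  | cons_cons a _ ih => simp only [sz_cons]; omega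

theorem sz_take_drop (l : List β) (k : ℕ) : sz (l.take k) + sz (l.drop k) = sz l + 1 := by
  rw [← sz_append, List.take_append_drop]

/-- a fold whose growth in each round is bounded by the size of a polynomial time function -/
theorem pt_fold {f : α → σ → β → σ} {l : α → List β} {i : α → σ} (g : α × β → γ)
    (hf : PT (fun p : α × σ × β => f p.1 p.2.1 p.2.2)) (hl : PT l) (hi : PT i) (hg : PT g)
    (h : ∀ x s a, sz (f x s a) ≤ sz s + sz (g (x, a))) :
    PT (fun x => (l x).foldl (f x) (i x)) := by
  obtain ⟨Q, hQ⟩ := hg.size_le
  refine PT.foldl' hf hl hi ⟨Q.comp (X + 1), fun x s a => ?_⟩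
  have h1 := h x s a
  have h2 := hQ (x, a)
  simp only [sz_pair] at h2
  simp only [eval_comp, eval_add, eval_X, eval_one]
  omega

@[fun_prop] theorem pt_take {l : α → List β} {k : α → ℕ} (hk : PT k) (hl : PT l) :
    PT (fun x => (l x).take (k x)) :=
  (PT.drop (PT.sub hl.length hk) hl.reverse).reverse.congr fun x => by
    rw [List.drop_reverse, List.reverse_reverse]
    rcases le_total (k x) (l x).length with h | h
    · rw [Nat.sub_sub_self h]
    · rw [Nat.sub_eq_zero_of_le h, Nat.sub_zero, List.take_length, List.take_of_length_le h]

@[fun_prop] theorem pt_flatten {l : α → List (List β)} (hl : PT l) :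
    PT (fun x => (l x).flatten) := by
  refine (pt_fold (f := fun _ (s a : List β) => s ++ a) (fun p => p.2) (by fun_prop) hl
    (PT.const []) (by fun_prop) fun x s a => ?_).congr fun x => ?_
  · have := sz_append s a
    simp only; omega
  · have e : ∀ (m : List (List β)) (s : List β), m.foldl (fun s a => s ++ a) s = s ++ m.flatten := by
      intro m
      induction m with
      | nil => simp
      | cons a m ih => intro s; simp [ih]
    simp [e]

@[fun_prop] theorem pt_flatMap {f : α → β → List γ} {l : α → List β}
    (hf : PT (fun p : α × β => f p.1 p.2)) (hl : PT l) : PT (fun x => (l x).flatMap (f x)) :=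
  (pt_flatten (PT.map hf hl)).congr fun x => by rw [List.flatMap_def]

@[fun_prop] theorem pt_filter {f : α → β → Bool} {l : α → List β}
    (hf : PT (fun p : α × β => f p.1 p.2)) (hl : PT l) : PT (fun x => (l x).filter (f x)) := by
  refine (pt_flatMap (f := fun x a => bif f x a then [a] else []) (PT.cond hf (by fun_prop)
    (by fun_prop)) hl).congr fun x => ?_
  induction l x with
  | nil => rfl
  | cons a m ih => rw [List.filter_cons, List.flatMap_cons, ← ih]; cases f x a <;> simp

@[fun_prop] theorem pt_rg {l : α → List β} (hl : PT l) : PT (fun x => rg (l x)) := by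
  have e : ∀ (m : List β) (k : ℕ), m.foldl (fun (s : List ℕ) _ => s.length :: s)
      (List.range k).reverse = (List.range (k + m.length)).reverse := by
    intro m
    induction m with
    | nil => simp
    | cons a m ih =>
      intro k
      have := ih (k + 1)
      rw [List.range_succ, List.reverse_append] at this
      simp only [List.foldl_cons, List.length_reverse, List.length_range, List.length_cons]
      rw [show k + (m.length + 1) = k + 1 + m.length by omega, ← this]
      rfl
  have key : PT (fun l : List β => rg l) := by
    refine (PT.foldl (f := fun _ (s : List ℕ) (_ : β) => s.length :: s) (by fun_prop) PT.id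
      (PT.const []) ⟨X * (4 * X + 2) + 1, fun x k => ?_⟩).reverse.congr fun l => ?_
    · have h1 := e (x.take k) 0
      simp only [List.range_zero, List.reverse_nil, zero_add] at h1
      rw [h1]
      have h0 := length_lt_sz x
      have h2 : (x.take k).length ≤ sz x := by simp; omega
      have h3 := sz_list_le (B := 4 * sz x + 1) (l := (List.range (x.take k).length).reverse)
        (fun a ha => by
          have h4 : a < (x.take k).length := by simpa using ha
          exact sz_nat_le (lt_of_lt_of_le (h4.trans_le h2) Nat.lt_two_pow_self.le))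
      rw [List.length_reverse, List.length_range] at h3
      have h5 : (x.take k).length * (4 * sz x + 1 + 1) ≤ sz x * (4 * sz x + 2) :=
        Nat.mul_le_mul h2 le_rfl
      simp only [eval_add, eval_mul, eval_X, eval_ofNat, eval_one]
      omega
    · have h1 := e l 0
      simp only [List.range_zero, List.reverse_nil, zero_add] at h1
      rw [h1, List.reverse_reverse, rg]
  exact PT.comp key hl

@[fun_prop] theorem pt_rg1 {l : α → List β} (hl : PT l) : PT (fun x => rg1 (l x)) :=
  (PT.append (pt_rg hl) (PT.cons hl.length (PT.const []))).congr fun x => by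
    rw [rg1, rg, List.range_succ]

@[fun_prop] theorem pt_leb {f g : α → ℕ} (hf : PT f) (hg : PT g) :
    PT (fun x => leb (f x) (g x)) := by
  unfold leb; fun_prop

@[fun_prop] theorem pt_mod {f g : α → ℕ} (hf : PT f) (hg : PT g) : PT (fun x => f x % g x) :=
  (PT.sub hf (PT.mul hg (PT.div hf hg))).congr fun _ => Nat.mod_def _ _

theorem sum_lt_sz (l : List ℕ) : l.sum < 2 ^ sz l := by
  induction l with
  | nil => simp
  | cons a l ih =>
    rw [List.sum_cons, sz_cons, pow_succ, pow_add]
    have h1 := lt_two_pow_sz a
    have h2 : 0 < 2 ^ sz a := by positivity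
    have h3 : 0 < 2 ^ sz l := by positivity
    nlinarith

@[fun_prop] theorem pt_sum {l : α → List ℕ} (hl : PT l) : PT (fun x => (l x).sum) := by
  have key : PT (fun l : List ℕ => l.sum) := by
    refine (PT.foldl (f := fun _ (s a : ℕ) => s + a) (by fun_prop) PT.id (PT.const 0)
      ⟨4 * X + 1, fun x k => ?_⟩).congr fun x => List.sum_eq_foldl
    rw [← List.sum_eq_foldl]
    have h1 := sz_nat_le (sum_lt_sz (x.take k))
    have h2 := sz_sublist (List.take_sublist k x)
    simp only [eval_add, eval_mul, eval_X, eval_ofNat, eval_one]
    omega
  exact PT.comp key hl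

@[fun_prop] theorem pt_maxL {l : α → List ℕ} (hl : PT l) : PT (fun x => maxL (l x)) := by
  refine (pt_fold (f := fun _ (s a : ℕ) => bif ltb s a then a else s) (fun p => p.2) (by fun_prop)
    hl (PT.const 0) (by fun_prop) fun x s a => ?_).congr fun x => ?_
  · cases ltb s a <;> simp
  · unfold maxL
    congr 1
    funext s a
    by_cases h : s < a
    · simp [h, h.le]
    · simp [h, not_lt.1 h]

@[fun_prop] theorem pt_eqL {a b : α → Str} (ha : PT a) (hb : PT b) :
    PT (fun x => eqL (a x) (b x)) := by
  have : PT (fun x => eqb (a x).length (b x).length &&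
      ((a x).zip (b x)).all fun q => eqb q.1 q.2) := by fun_prop
  refine this.congr fun x => ?_
  generalize a x = a
  generalize b x = b
  induction a generalizing b with
  | nil => cases b <;> simp [eqL]
  | cons c a ih =>
    cases b with
    | nil => simp [eqL]
    | cons d b =>
      have := ih b
      rw [Bool.eq_iff_iff] at this ⊢
      simp only [eqL, decide_eq_true_eq, eqb_eq, Bool.and_eq_true, List.cons.injEq,
        List.length_cons, List.zip_cons_cons, List.all_cons] at this ⊢
      rw [this]
      constructor
      · rintro ⟨h1, h2, h3⟩; exact ⟨by omega, h1, h3⟩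
      · rintro ⟨h1, h2, h3⟩; exact ⟨h2, by omega, h3⟩

@[fun_prop] theorem pt_pre {a b : α → Str} (ha : PT a) (hb : PT b) :
    PT (fun x => pre (a x) (b x)) := by unfold pre; fun_prop

@[fun_prop] theorem pt_suf {a b : α → Str} (ha : PT a) (hb : PT b) :
    PT (fun x => suf (a x) (b x)) := by unfold suf; fun_prop

theorem sz_getD_le (l : List β) (k : ℕ) (d : β) : sz (l.getD k d) ≤ sz l + sz d := by
  by_cases h : k < l.length
  · rw [List.getD_eq_getElem _ _ h]
    have := sz_lt_of_mem (List.getElem_mem h)
    omega
  · rw [List.getD_eq_default _ _ (by omega)]; omega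

theorem headD_mem {δ : Type} (l : List δ) (d : δ) : l.headD d = d ∨ l.headD d ∈ l := by
  cases l <;> simp

end Vale.Agent.P333
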