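import Mathlib

/-! Self-delimiting binary codes. -/

namespace Vale.Agent.P333

def bBool : Bool → List Bool
  | false => [false]
  | true => [true, false, false]

def bList {α : Type} (f : α → List Bool) : List α → List Bool
  | [] => [false]
  | a :: l => true :: (f a ++ bList f l)

/-- binary digits, least significant first -/
def bNat (n : ℕ) : List Bool := bList bBool n.bits

end Vale.Agent.P333
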