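import Vale.Agent.Lib.helper23.Pad
import Mathlib

/-! The algorithm. -/

namespace Vale.Agent.P333

open Vale.Agent.Lib.H23

abbrev Str : Type := List ℕ
abbrev Tab : Type := List (Str × ℕ)
abbrev Ctx : Type := List Str × List ℕ
abbrev Mv : Type := List (Bool × ℕ)
abbrev Tp : Type := ℕ × ℕ × ℕ

def eqL (a b : Str) : Bool := decide (a = b)
def pre (a b : Str) : Bool := eqL a (b.take a.length)
def suf (a b : Str) : Bool := eqL a (b.drop (b.length - a.length))
def rg {β : Type} (l : List β) : List ℕ := List.range l.length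
def rg1 {β : Type} (l : List β) : List ℕ := List.range (l.length + 1)
def leb (x y : ℕ) : Bool := !(ltb y x)
def maxL (l : List ℕ) : ℕ := l.foldl max 0

/-! forced counts -/

def cyc (v : Str) (p e k : ℕ) : ℕ := v.getD ((k + (p - 1) * e) % p) 0

def cp (u v w : Str) (e : ℕ) : Bool :=
  ltb 0 e && ltb (u.length + e) w.length && leb w.length (v.length + e) &&
    (rg w).all fun k => xor (eqb k 0 || eqb (k + 1) w.length)
      (eqb (w.getD k 0) (cyc v (v.length - u.length) e k))

def cl1 (tab : Tab) (u v : Str) : ℕ :=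
  (tab.map fun x => ((rg x.1).map fun e => bif cp u v x.1 e then x.2 else 0).sum).sum

def cl0 (tab : Tab) (u v : Str) : ℕ :=
  (tab.map fun x => ((rg x.1).map fun e =>
    bif cp u v x.1 e then x.2 * ((e - 1) / (v.length - u.length)) else 0).sum).sum

def sumL (tab : Tab) (u : Str) : ℕ := (tab.map fun x => bif eqL x.1.tail u then x.2 else 0).sum

def sumR (tab : Tab) (u : Str) : ℕ :=
  (tab.map fun x => bif eqL (x.1.take (x.1.length - 1)) u then x.2 else 0).sum

def rule (tab : Tab) (u : Str) : ℕ :=
  maxL (tab.map fun x => bif pre u x.1 && suf u x.1 && ltb (cl0 tab u x.1) x.2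
    then x.2 + cl1 tab u x.1 + 1 else 0)

def val (S : List Str) (tab : Tab) (u : Str) : ℕ :=
  maxL [sumL tab u, sumR tab u, bif S.any (fun s => eqL u s) then 1 else 0, rule tab u]

def dd (l : List Str) : List Str :=
  l.foldl (fun acc x => bif acc.any (fun y => eqL x y) then acc else acc ++ [x]) []

def subs (S : List Str) (n : ℕ) : List Str :=
  dd (S.flatMap fun s => ((rg s).filter fun a => leb (a + n) s.length).map
    fun a => (s.drop a).take n)

def level (S : List Str) (tab : Tab) (n : ℕ) : Tab :=
  tab ++ (subs S (n + 1)).map fun u => (u, (S.flatten.take (val S tab u)).length)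

def table (S : List Str) : Tab := (rg S.flatten).reverse.foldl (level S) []

def lng (tab : Tab) (u : Str) : Tab := tab.filter fun x => ltb u.length x.1.length

def rows (S : List Str) : List Str :=
  (table S).flatMap fun x =>
    (S.flatten.take (x.2 - sumR (lng (table S) x.1) x.1)).map fun _ => x.1

/-! the successor permutation -/

def pick (r : List Str) (used : List ℕ) (y : Str) : ℕ :=
  ((rg r).filter fun j => !(used.any fun k => eqb j k) && pre y.tail (r.getD j [])).headD 0

def sgm (r : List Str) : List ℕ := r.foldl (fun used y => used ++ [pick r used y]) []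

def row (G : Ctx) (i : ℕ) : Str := G.1.getD i []
def nx (G : Ctx) (i : ℕ) : ℕ := G.2.getD i 0
def itr (G : Ctx) (l : List ℕ) (i : ℕ) : ℕ := l.foldl (fun j _ => nx G j) i
def itk (G : Ctx) (k i : ℕ) : ℕ := itr G ((rg G.1).take k) i

def wd (G : Ctx) (i : ℕ) (l : List ℕ) : Str :=
  (rg l).map fun k => (row G (itr G (l.take k) i)).headD 0

def same (G : Ctx) (i j : ℕ) : Bool := (rg G.1).any fun k => eqb (itk G k i) j
def per (G : Ctx) (i : ℕ) : ℕ := ((rg G.1).filter fun j => same G i j).length

/-! walks -/

def mv (x : Str) (a : Bool × ℕ) : Str := bif a.1 then x ++ [a.2] else x.tail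
def run (x : Str) (M : Mv) : Str := M.foldl mv x
def ups (y : Str) : Mv := y.map fun c => (true, c)
def downs (l : List ℕ) : Mv := l.map fun _ => (false, 0)
def out (M : Mv) : Str := (M.filter fun a => a.1).map fun a => a.2
def cost (M : Mv) : ℕ := (out M).length

def meet (M : Mv) (Z : Str × Mv) : List (ℕ × ℕ) :=
  ((rg1 M).flatMap fun a => (rg1 Z.2).map fun b => (a, b)).filter
    fun q => eqL (run [] (M.take q.1)) (run Z.1 (Z.2.take q.2))

def touch (M : Mv) (Z : Str × Mv) : Bool := !(meet M Z).isEmpty

def splice (M C : Mv) (q : ℕ × ℕ) : Mv := M.take q.1 ++ (C.drop q.2 ++ (C.take q.2 ++ M.drop q.1))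

def attach (M : Mv) (Z : Str × Mv) : Mv :=
  bif touch M Z then splice M Z.2 ((meet M Z).headD (0, 0)) else M

def tri (y : Str) : Mv := ups y ++ downs y

def leg (G : Ctx) (j : ℕ) : Mv :=
  (false, 0) :: ups ((row G (nx G j)).drop ((row G j).length - 1))

def curve (G : Ctx) (i : ℕ) : Str × Mv :=
  (row G i, ((rg G.1).take (per G i)).flatMap fun k => leg G (itk G k i))

def rnd (y : Str) (a b : ℕ) : Mv :=
  downs (y.take a) ++ (ups (y.take b) ++ (downs (y.drop a) ++ ups (y.drop b)))

def round (G : Ctx) (i a b : ℕ) : Str × Mv :=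
  (row G i, rnd ((row G i).drop ((row G i).length - per G i)) a b)

/-! first phase -/

def ex (G : Ctx) (t : Tp) : Bool :=
  leb (per G t.1) (row G t.1).length && ltb ((row G t.1).length + per G t.1) t.2.2 &&
    leb (row G t.2.1).length (t.2.2 + 1) && ltb t.2.2 (row G (nx G t.2.1)).length &&
    eqL ((row G (nx G t.2.1)).take t.2.2) (wd G t.1 ((row G (nx G t.2.1)).take t.2.2)) &&
    !(eqb ((row G (nx G t.2.1)).getD t.2.2 0) ((row G (nx G t.2.1)).getD (t.2.2 - per G t.1) 0))

def allT (G : Ctx) : List Tp :=
  (rg G.1).flatMap fun i => (rg G.1).flatMap fun j =>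
    (rg (row G (nx G j))).map fun l => (i, j, l)

def trips (G : Ctx) : List Tp :=
  (rg1 G.1).flatMap fun q => (allT G).filter fun t => eqb (per G t.1) q && ex G t

def kids (G : Ctx) : List Tp :=
  (trips G).foldl (fun acc t =>
    bif acc.any (fun s => same G s.1 t.1 || same G s.2.1 t.1) then acc else acc ++ [t]) []

def grp (G : Ctx) (K : List Tp) (h : ℕ) : List Tp := K.filter fun t => same G h t.2.1

def hosts (G : Ctx) (K : List Tp) : List ℕ :=
  (rg G.1).filter fun h => !(grp G K h).isEmpty && (rg G.1).all fun j => !(ltb j h && same G h j)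

def arm (G : Ctx) (t : Tp) : Str := (row G (nx G t.2.1)).take (t.2.2 - per G t.1)

def star (G : Ctx) (L : List Tp) (y : Str) : Mv :=
  L.foldl (fun M t => bif touch M (curve G t.1) then M else tri (arm G t) ++ M) (tri y)

def words (G : Ctx) : List Str :=
  (rg G.1).flatMap fun i => (rg1 G.1).map fun l => wd G i ((rg G.1).take l)

def best (G : Ctx) (L : List Tp) (h : ℕ) : Mv :=
  ((((words G).filter fun y => touch (tri y) (curve G h)).map fun y => star G L y).filter
    fun M => leb (cost M) (per G h + (L.map fun t => per G t.1).sum)).headD []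

def first (G : Ctx) : Mv := (hosts G (kids G)).flatMap fun h => best G (grp G (kids G) h) h

/-! second phase -/

def isD (G : Ctx) (D : List ℕ) (j : ℕ) : Bool := D.any fun d => same G d j
def cnt (G : Ctx) (D : List ℕ) : ℕ := ((rg G.1).filter fun j => isD G D j).length

def abs1 (G : Ctx) (s : Mv × List ℕ) (i : ℕ) : Mv × List ℕ :=
  bif !(isD G s.2 i) && touch s.1 (curve G i) then (attach s.1 (curve G i), i :: s.2) else s

def absorb (G : Ctx) (s : Mv × List ℕ) : Mv × List ℕ := (rg G.1).foldl (abs1 G) s

def cands (G : Ctx) : List (Str × Mv) :=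
  ((words G).map fun y => ([], tri y)) ++
    ((rg G.1).flatMap fun i => (rg1 G.1).flatMap fun a => (rg1 G.1).map fun b =>
      round G i a b).filter fun Z => eqL (run Z.1 Z.2) Z.1

def step (G : Ctx) (s : Mv × List ℕ) : Mv × List ℕ :=
  (((cands G).map fun Z => absorb G (attach s.1 Z, s.2)).filter
    fun t => ltb (cnt G s.2) (cnt G t.2) && leb (cost t.1) (2 * cnt G t.2)).headD s

def final (G : Ctx) : Mv × List ℕ :=
  (rg G.1).foldl (fun s _ => step G s) (absorb G (first G, []))

def scs (S : List Str) : Str := out (final (rows S, sgm (rows S))).1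

end Vale.Agent.P333
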